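import Mathlib

/-!
# P302: the modified integer round-up property for instances with a small LP value
-/

namespace Vale.Agent.Results.P302.SmallLP

open Finset

variable {n : ℕ}

/-- total size of the items in bin `j` -/
def load (a : Fin n → ℚ) {β : Type} [DecidableEq β] (f : Fin n → β) (j : β) : ℚ :=
  ∑ i, if f i = j then a i else 0

/-- the items can be packed into `k` bins -/
def Packs (a : Fin n → ℚ) (k : ℕ) : Prop := ∃ f : Fin n → Fin k, ∀ j, load a f j ≤ 1

/-- least number of bins -/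
noncomputable def OPT (a : Fin n → ℚ) : ℕ := sInf {k | Packs a k}

/-- the distinct sizes -/
def sizes (a : Fin n → ℚ) : Finset ℚ := univ.image a

/-- multiplicity of a size -/
def mult (a : Fin n → ℚ) (s : ℚ) : ℕ := (univ.filter fun i => a i = s).card

/-- configurations -/
def IsConfig (a : Fin n → ℚ) (c : ℚ → ℕ) : Prop := ∑ s ∈ sizes a, s * c s ≤ 1

/-- values of the feasible solutions of the configuration LP -/
def LPset (a : Fin n → ℚ) : Set ℝ :=
  {v | ∃ (m : ℕ) (c : Fin m → ℚ → ℕ) (z : Fin m → ℝ), (∀ j, 0 ≤ z j) ∧ (∀ j, IsConfig a (c j)) ∧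
    (∀ s ∈ sizes a, (mult a s : ℝ) ≤ ∑ j, (c j s : ℝ) * z j) ∧ v = ∑ j, z j}

/-- value of the configuration LP -/
noncomputable def LP (a : Fin n → ℚ) : ℝ := sInf (LPset a)

theorem total_eq (a : Fin n → ℚ) : ∑ i, a i = ∑ s ∈ sizes a, s * mult a s := by
  rw [← Finset.sum_fiberwise_of_maps_to (s := univ) (t := sizes a) (g := a)
    (fun i _ => mem_image_of_mem a (mem_univ i))]
  refine Finset.sum_congr rfl fun s _ => ?_
  rw [Finset.sum_congr rfl (g := fun _ => s) (fun i hi => (mem_filter.1 hi).2)]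
  rw [Finset.sum_const, mult, nsmul_eq_mul, mul_comm]

theorem total_le {a : Fin n → ℚ} (h0 : ∀ i, 0 < a i) {v : ℝ} (hv : v ∈ LPset a) :
    ((∑ i, a i : ℚ) : ℝ) ≤ v := by
  obtain ⟨m, c, z, hz, hc, hm, rfl⟩ := hv
  rw [total_eq]
  push_cast
  have h1 : ∀ s ∈ sizes a, (s : ℝ) * (mult a s : ℝ) ≤ ∑ j, (s : ℝ) * (c j s : ℝ) * z j := by
    intro s hs
    have hs0 : (0 : ℝ) ≤ s := by
      obtain ⟨i, -, rfl⟩ := mem_image.1 hs
      exact_mod_cast (h0 i).le
    have := mul_le_mul_of_nonneg_left (hm s hs) hs0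
    rw [Finset.mul_sum] at this
    refine this.trans (le_of_eq (Finset.sum_congr rfl fun j _ => ?_))
    ring
  refine (Finset.sum_le_sum h1).trans ?_
  rw [Finset.sum_comm]
  refine Finset.sum_le_sum fun j _ => ?_
  rw [← Finset.sum_mul]
  have h2 : (∑ s ∈ sizes a, (s : ℝ) * (c j s : ℝ)) ≤ 1 := by
    have := hc j
    unfold IsConfig at this
    exact_mod_cast this
  have := mul_le_mul_of_nonneg_right h2 (hz j)
  linarith

theorem LPset_nonempty {a : Fin n → ℚ} (h1 : ∀ i, a i ≤ 1) : (LPset a).Nonempty := by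
  refine ⟨_, n, fun j s => if s = a j then 1 else 0, fun _ => 1, fun _ => zero_le_one, ?_, ?_, rfl⟩
  · intro j
    unfold IsConfig
    rw [Finset.sum_eq_single (a j)]
    · simpa using h1 j
    · intro s _ hs
      simp [hs]
    · intro h
      exact absurd (mem_image_of_mem a (mem_univ j)) h
  · intro s _
    simp only [mult, mul_one]
    rw [Finset.card_filter]
    push_cast
    refine Finset.sum_le_sum fun i _ => ?_
    by_cases h : a i = s
    · simp [h]
    · have h' : ¬ s = a i := fun e => h e.symm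
      simp [h, h']

theorem total_le_LP {a : Fin n → ℚ} (h0 : ∀ i, 0 < a i) (h1 : ∀ i, a i ≤ 1) :
    ((∑ i, a i : ℚ) : ℝ) ≤ LP a :=
  le_csInf (LPset_nonempty h1) fun _ hv => total_le h0 hv

theorem packs_n {a : Fin n → ℚ} (h1 : ∀ i, a i ≤ 1) : Packs a n := by
  refine ⟨id, fun j => ?_⟩
  unfold load
  simp only [id]
  rw [Finset.sum_ite_eq' univ j a, if_pos (mem_univ j)]
  exact h1 j

theorem packs_OPT {a : Fin n → ℚ} (h1 : ∀ i, a i ≤ 1) : Packs a (OPT a) :=
  Nat.sInf_mem (s := {k | Packs a k}) ⟨n, packs_n h1⟩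

theorem sum_load (a : Fin n → ℚ) {β : Type} [Fintype β] [DecidableEq β] (f : Fin n → β) :
    ∑ j, load a f j = ∑ i, a i := by
  unfold load
  rw [Finset.sum_comm]
  refine Finset.sum_congr rfl fun i _ => ?_
  rw [Finset.sum_ite_eq univ (f i) (fun _ => a i), if_pos (mem_univ _)]

/-- merging two bins -/
theorem merge {a : Fin n → ℚ} {k : ℕ} (f : Fin n → Fin (k + 1)) (hf : ∀ j, load a f j ≤ 1)
    {j₁ j₂ : Fin (k + 1)} (hj : j₁ ≠ j₂) (hs : load a f j₁ + load a f j₂ ≤ 1) : Packs a k := by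
  classical
  let β := {j : Fin (k + 1) // j ≠ j₂}
  have hcard : Fintype.card β = k := by
    simp [β, Fintype.card_subtype_compl]
  let e : β ≃ Fin k := Fintype.equivFinOfCardEq hcard
  let g : Fin n → β := fun i => if h : f i = j₂ then ⟨j₁, hj⟩ else ⟨f i, h⟩
  refine ⟨fun i => e (g i), fun j => ?_⟩
  obtain ⟨b, rfl⟩ := e.surjective j
  have h1 : load a (fun i => e (g i)) (e b) = ∑ i, if g i = b then a i else 0 := by
    unfold load
    simp only [EmbeddingLike.apply_eq_iff_eq]
  rw [h1]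
  by_cases hb : b.1 = j₁
  · have h2 : ∀ i, (if g i = b then a i else 0) =
        (if f i = j₁ then a i else 0) + if f i = j₂ then a i else 0 := by
      intro i
      by_cases h : f i = j₂
      · have hg : g i = b := by
          simp only [g, dif_pos h]
          exact Subtype.ext hb.symm
        have : f i ≠ j₁ := fun h' => hj (h'.symm.trans h)
        simp [hg, h, hj.symm]
      · have hg : g i = b ↔ f i = j₁ := by
          simp only [g, dif_neg h]
          rw [Subtype.ext_iff, hb]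
        by_cases h' : f i = j₁
        · simp [hg, h', hj]
        · simp [hg, h', h]
    rw [Finset.sum_congr rfl fun i _ => h2 i, Finset.sum_add_distrib]
    exact hs
  · have h2 : ∀ i, (if g i = b then a i else 0) = if f i = b.1 then a i else 0 := by
      intro i
      by_cases h : f i = j₂
      · have hg : g i ≠ b := by
          simp only [g, dif_pos h]
          intro h3
          exact hb (Subtype.ext_iff.1 h3).symm
        have : f i ≠ b.1 := fun h' => b.2 (h'.symm.trans h)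
        simp [hg, this]
      · have hg : g i = b ↔ f i = b.1 := by
          simp only [g, dif_neg h]
          rw [Subtype.ext_iff]
        simp [hg]
    rw [Finset.sum_congr rfl fun i _ => h2 i]
    exact hf b.1

theorem not_packs {a : Fin n → ℚ} {k : ℕ} (hk : OPT a = k + 1) : ¬ Packs a k := fun h => by
  have : OPT a ≤ k := Nat.sInf_le h
  omega

theorem load_nonneg {a : Fin n → ℚ} (h0 : ∀ i, 0 < a i) {β : Type} [DecidableEq β]
    (f : Fin n → β) (j : β) : 0 ≤ load a f j :=
  Finset.sum_nonneg fun i _ => by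
    split_ifs
    · exact (h0 i).le
    · exact le_rfl

theorem big_total {a : Fin n → ℚ} (h0 : ∀ i, 0 < a i) (h1 : ∀ i, a i ≤ 1) {k : ℕ}
    (hk : OPT a = k + 4) : 2 < ∑ i, a i := by
  have hP : Packs a (k + 3 + 1) := by
    have := packs_OPT h1
    rwa [hk] at this
  obtain ⟨f, hf⟩ := hP
  have hpair : ∀ j₁ j₂ : Fin (k + 3 + 1), j₁ ≠ j₂ → 1 < load a f j₁ + load a f j₂ := by
    intro j₁ j₂ hj
    by_contra hc
    exact not_packs (k := k + 3) hk (merge f hf hj (not_lt.1 hc))
  rw [← sum_load a f, Fin.sum_univ_succ, Fin.sum_univ_succ, Fin.sum_univ_succ, Fin.sum_univ_succ]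
  have e1 := hpair 0 (Fin.succ 0) (Fin.succ_ne_zero _).symm
  have e2 := hpair (Fin.succ (Fin.succ 0)) (Fin.succ (Fin.succ (Fin.succ 0)))
    (fun h => (Fin.succ_ne_zero (0 : Fin (k + 1))) (Fin.succ_injective _ (Fin.succ_injective _ h)).symm)
  have e3 : 0 ≤ ∑ i : Fin k, load a f (Fin.succ (Fin.succ (Fin.succ (Fin.succ i)))) :=
    Finset.sum_nonneg fun i _ => load_nonneg h0 f _
  linarith

theorem load_update (a : Fin n → ℚ) {k : ℕ} (f : Fin n → Fin k) (i₀ : Fin n) (j b : Fin k) :
    load a (Function.update f i₀ j) b - load a f b =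
      (if j = b then a i₀ else 0) - (if f i₀ = b then a i₀ else 0) := by
  unfold load
  rw [← Finset.sum_sub_distrib, Finset.sum_eq_single i₀]
  · simp
  · intro i _ hi
    simp [Function.update_of_ne hi]
  · intro h
    exact absurd (mem_univ i₀) h

theorem last_item {a : Fin n → ℚ} (h0 : ∀ i, 0 < a i) (h1 : ∀ i, a i ≤ 1) {k : ℕ}
    (hk : OPT a = k + 2) : ∃ i, ((k : ℚ) + 1) * (1 - a i) + a i < ∑ i, a i := by
  classical
  have hP : Packs a (k + 1 + 1) := by
    have := packs_OPT h1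
    rwa [hk] at this
  obtain ⟨f₀, hf₀⟩ := hP
  obtain ⟨f, hfm, hmin⟩ := Finset.exists_min_image
    (univ.filter fun f : Fin n → Fin (k + 1 + 1) => ∀ j, load a f j ≤ 1)
    (fun f => load a f 0) ⟨f₀, mem_filter.2 ⟨mem_univ _, hf₀⟩⟩
  have hf := (mem_filter.1 hfm).2
  -- bin 0 is not empty
  have hne : ∃ i, f i = 0 := by
    by_contra hc
    push Not at hc
    have hl : load a f 0 = 0 := Finset.sum_eq_zero fun i _ => by rw [if_neg (hc i)]
    exact not_packs (k := k + 1) hk (merge f hf (Fin.succ_ne_zero (0 : Fin (k + 1))).symm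
      (by rw [hl, zero_add]; exact hf _))
  obtain ⟨i₀, hi₀⟩ := hne
  have hbig : ∀ j : Fin (k + 1 + 1), j ≠ 0 → 1 - a i₀ < load a f j := by
    intro j hj
    by_contra hc
    have hc' : load a f j + a i₀ ≤ 1 := by linarith [not_lt.1 hc]
    have hval : ∀ b, load a (Function.update f i₀ j) b ≤ 1 := by
      intro b
      have h2 := load_update a f i₀ j b
      have h3 := hf b
      have h4 := (h0 i₀).le
      by_cases hb : j = b
      · rw [if_pos hb, if_neg (by rw [hi₀, ← hb]; exact hj.symm)] at h2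
        rw [← hb] at h2 ⊢
        linarith
      · rw [if_neg hb] at h2
        split_ifs at h2 <;> linarith
    have h5 := hmin _ (mem_filter.2 ⟨mem_univ _, hval⟩)
    have h6 := load_update a f i₀ j 0
    rw [if_neg hj, if_pos hi₀] at h6
    have h7 := h0 i₀
    linarith
  have h8 : a i₀ ≤ load a f 0 := by
    unfold load
    have := Finset.single_le_sum (f := fun i => if f i = 0 then a i else 0)
      (fun i _ => by
        split_ifs
        · exact (h0 i).le
        · exact le_rfl) (mem_univ i₀)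
    simpa [hi₀] using this
  refine ⟨i₀, ?_⟩
  rw [← sum_load a f, Fin.sum_univ_succ]
  have h9 : ∑ _j : Fin (k + 1), (1 - a i₀) < ∑ j : Fin (k + 1), load a f j.succ :=
    Finset.sum_lt_sum_of_nonempty ⟨0, mem_univ _⟩ fun j _ => hbig _ (Fin.succ_ne_zero j)
  rw [Finset.sum_const, Finset.card_univ, Fintype.card_fin, nsmul_eq_mul] at h9
  push_cast at h9
  linarith

/-- The modified integer round-up property `OPT(I) ≤ ⌈LP(I)⌉ + 1` holds for every instance with
`LP(I) ≤ 2` and for every instance with `a_i * LP(I) ≤ 1` for all items `i`. -/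
theorem result : ∀ (n : ℕ) (a : Fin n → ℚ), (∀ i, 0 < a i) → (∀ i, a i ≤ 1) →
    (LP a ≤ 2 ∨ ∀ i, (a i : ℝ) * LP a ≤ 1) → (OPT a : ℤ) ≤ ⌈LP a⌉ + 1 := by
  intro n a h0 h1 h
  have hS := total_le_LP h0 h1
  have hS0 : (0 : ℝ) ≤ ((∑ i, a i : ℚ) : ℝ) := by
    exact_mod_cast Finset.sum_nonneg fun i _ => (h0 i).le
  have hL0 : 0 ≤ LP a := hS0.trans hS
  have hceil := Int.le_ceil (LP a)
  by_contra hc
  push Not at hc
  have hc0 : (0 : ℤ) ≤ ⌈LP a⌉ := Int.ceil_nonneg hL0
  obtain ⟨k, hk⟩ : ∃ k, OPT a = k + 2 := ⟨OPT a - 2, by omega⟩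
  have hk1 : ⌈LP a⌉ < k + 1 := by omega
  have hk2 : LP a + 1 ≤ (k : ℝ) + 1 := by
    have h2 : ⌈LP a⌉ ≤ (k : ℤ) := by omega
    have h3 : ((⌈LP a⌉ : ℤ) : ℝ) ≤ ((k : ℤ) : ℝ) := by exact_mod_cast h2
    push_cast at h3
    linarith
  rcases h with h | h
  · -- `LP ≤ 2`
    have hn : ∃ i, ((k : ℚ) + 1) * (1 - a i) + a i < ∑ i, a i := last_item h0 h1 hk
    rcases Nat.lt_or_ge k 2 with hk3 | hk3
    · -- `OPT ≤ 3`, so `⌈LP⌉ ≤ 1` and all items fit in one bin
      have hk4 : LP a ≤ 1 := by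
        have h2 : ⌈LP a⌉ ≤ (k : ℤ) := by omega
        have h3 : ⌈LP a⌉ ≤ 1 := by omega
        have h4 : ((⌈LP a⌉ : ℤ) : ℝ) ≤ 1 := by exact_mod_cast h3
        linarith
      have hp : Packs a 1 := by
        refine ⟨fun _ => 0, fun j => ?_⟩
        have h5 : load a (fun _ => (0 : Fin 1)) j = ∑ i, a i := by
          unfold load
          refine Finset.sum_congr rfl fun i _ => ?_
          rw [if_pos (Subsingleton.elim _ _)]
        rw [h5]
        exact_mod_cast hS.trans hk4
      have : OPT a ≤ 1 := Nat.sInf_le hp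
      omega
    · obtain ⟨k', rfl⟩ : ∃ k', k = k' + 2 := ⟨k - 2, by omega⟩
      have h2 := big_total h0 h1 (k := k') hk
      have h3 : (2 : ℝ) < ((∑ i, a i : ℚ) : ℝ) := by exact_mod_cast h2
      linarith
  · obtain ⟨i, hi⟩ := last_item h0 h1 hk
    have h2 : ((k : ℝ) + 1) * (1 - (a i : ℝ)) + (a i : ℝ) < ((∑ i, a i : ℚ) : ℝ) := by
      exact_mod_cast hi
    have h3 := h i
    have h4 : (a i : ℝ) ≤ 1 := by exact_mod_cast h1 i
    have h5 : (LP a + 1) * (1 - (a i : ℝ)) ≤ ((k : ℝ) + 1) * (1 - (a i : ℝ)) :=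
      mul_le_mul_of_nonneg_right hk2 (by linarith)
    nlinarith

end Vale.Agent.Results.P302.SmallLP
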